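import Vale.Agent.P156.R2.Defs
import Vale.Agent.P156.H849.Target

/-! Interface statements (as propositions) between the blocks of the development `R2`.
Every block proves one or several of these; the final assembly only uses them. -/

open MeasureTheory Filter Topology Matrix Finset

namespace Vale.Agent.P156

noncomputable section

/-- The filter of admissible sizes. -/
def admissible (d : ℕ) : Filter ℕ := atTop ⊓ 𝓟 {n : ℕ | d < n ∧ Even (n * d)}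

/-- The solution with positive imaginary part of `(d-1) m² + z m + 1 = 0` for `Im z > 0`
(uniqueness/continuity: block C8). -/
def IsTreeStieltjes (d : ℕ) (z m : ℂ) : Prop :=
  ((d : ℂ) - 1) * m ^ 2 + z * m + 1 = 0 ∧ 0 < m.im

/-! ### B: switching -/

/-- Exact exchangeability of the leads on `Z_K`. -/
def SpecPerm (d : ℕ) : Prop :=
  ∀ (n K : ℕ) (σ : Equiv.Perm (Fin K × Fin d)) (ι : Type) (z : ι → ℂ)
    (Φ : (ι → Matrix (Fin K × Fin d) (Fin K × Fin d) ℂ) → ℝ),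
    avg (ZZs n d K) (fun ω => Φ (fun i => leadMat ω (z i))) =
      avg (ZZs n d K) (fun ω => Φ (fun i => (leadMat ω (z i)).submatrix σ σ))

/-- `Z_K` fills `W_K` up to `O(1/n)`. -/
def SpecZW (d : ℕ) : Prop :=
  ∀ K : ℕ, ∃ C : ℝ, ∀ n : ℕ, d < n → Even (n * d) →
    prob (WW n d K) (fun ω => ω ∉ ZZs n d K) ≤ C / n

/-! ### C: soft local law -/

/-- Soft local law, averaged over the energy in `[a,b]`. -/
def SpecLL (d : ℕ) : Prop :=
  ∀ a b : ℝ, a < b → -(2 * Real.sqrt ((d : ℝ) - 1)) < a → b < 2 * Real.sqrt ((d : ℝ) - 1) →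
  ∀ K : ℕ, ∀ ε > 0, ∃ L₀ : ℝ, ∀ L ≥ L₀, ∀ᶠ n in admissible d,
    ∫ E in a..b, prob (WW n d K) (fun ω => ∃ x y,
      ε < ‖starMat ω ((E : ℂ) + ((L / n : ℝ) : ℂ) * Complex.I) x y - KE d E K x y‖) ≤ ε

/-- Local law at fixed `η > 0` and a fixed bulk energy `E`, on `K` stars (used for the log
determinant, the Kesten-McKay law and the noise covariance of Theorem II). -/
def SpecFix (d : ℕ) : Prop :=
  ∀ (E η : ℝ), |E| < 2 * Real.sqrt ((d : ℝ) - 1) → 0 < η → ∀ m : ℂ, IsTreeStieltjes d ((E : ℂ) + η * Complex.I) m →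
  ∀ K : ℕ, ∀ ε > 0, ∀ᶠ n in admissible d,
    prob (WW n d K) (fun ω => ∃ x y,
      ε < ‖starMat ω ((E : ℂ) + η * Complex.I) x y -
        (if x.1 = y.1 then (-1 / (((E : ℂ) + η * Complex.I) + d * m)) * (-m) ^ starDist x.2 y.2
          else 0)‖) ≤ ε

/-- No loss of mass / uniform integrability, averaged over the energy. -/
def SpecUI (d : ℕ) : Prop :=
  ∀ a b : ℝ, a < b → -(2 * Real.sqrt ((d : ℝ) - 1)) < a → b < 2 * Real.sqrt ((d : ℝ) - 1) →
  ∀ B : ℝ, ∀ ε > 0, ∃ M : ℝ, ∀ᶠ n in admissible d,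
    ∫ E in a..b, avg (WW n d 1) (fun ω => ∑ i, if |xx E ω.1 i| ≤ B ∧ M < phi ω.1 i (ω.2.1 0) ^ 2
      then phi ω.1 i (ω.2.1 0) ^ 2 else 0) ≤ ε

/-! ### D: Theorem II (quenched Gaussian waves) -/

/-- Law of a `k`-dimensional Gaussian wave on the star, multiplied by the `k × k` matrix `B`:
`Z_o = g_0`, `Z_j = (λ/d) g_0 + √c (g_j - mean g)`, `c = (d²-λ²)/(d(d-1))`. -/
def waveOf (d k : ℕ) (lam : ℝ) (B : Matrix (Fin k) (Fin k) ℝ)
    (g : Option (Fin d) × Fin k → ℝ) : (Fin k → ℝ) × (Fin d → Fin k → ℝ) :=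
  (fun a => ∑ b, B a b * g (none, b),
   fun j a => ∑ b, B a b * (lam / d * g (none, b) +
     Real.sqrt (((d : ℝ) ^ 2 - lam ^ 2) / (d * ((d : ℝ) - 1))) *
       (g (some j, b) - (∑ i : Fin d, g (some i, b)) / d)))

/-- The Gaussian star law `N(0, (B Bᵀ) ⊗ Σ_star)`. -/
def gaussStar (d k : ℕ) (lam : ℝ) (B : Matrix (Fin k) (Fin k) ℝ) :
    Measure ((Fin k → ℝ) × (Fin d → Fin k → ℝ)) :=
  (Measure.pi (fun _ : Option (Fin d) × Fin k => ProbabilityTheory.gaussianReal 0 1)).map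
    (waveOf d k lam B)

open Classical in
/-- Average of `ψ(f(v); f(l_1),…,f(l_d))` over a uniform vertex and a uniform ordering of its
neighbourhood. -/
def starAvg {n : ℕ} (d : ℕ) {k : ℕ} (G : SimpleGraph (Fin n)) (f : Fin n → Fin k → ℝ)
    (ψ : (Fin k → ℝ) × (Fin d → Fin k → ℝ) → ℝ) : ℝ :=
  avg (Finset.univ.filter (fun p : Fin n × (Fin d → Fin n) => IsStar G p.1 p.2))
    (fun p => ψ (f p.1, fun i => f (p.2 i)))

/-- Theorem II: for most graphs, every almost eigenvector with eigenvalue near `lam` has a star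
law close to a Gaussian wave (tested on finitely many bounded continuous functions). -/
def SpecTII (d : ℕ) : Prop :=
  ∀ lam : ℝ, |lam| < 2 * Real.sqrt ((d : ℝ) - 1) → ∀ k : ℕ,
  ∀ Ψ : Finset (BoundedContinuousFunction ((Fin k → ℝ) × (Fin d → Fin k → ℝ)) ℝ), ∀ ε > 0,
  ∃ δ > 0, ∀ᶠ n in admissible d,
    prob (regularGraphs n d) (fun G => ∃ f : Fin n → Fin k → ℝ,
      (∑ v, ∑ a, f v a ^ 2 ≤ k * n) ∧
      (∑ v, ∑ a, ((∑ w, adj G v w * f w a) - lam * f v a) ^ 2 ≤ δ * n) ∧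
      ∀ B : Matrix (Fin k) (Fin k) ℝ, ∃ ψ ∈ Ψ,
        ε < |starAvg d G f ψ - ∫ x, ψ x ∂(gaussStar d k lam B)|) ≤ ε

/-! ### E, F: limit laws of scattering matrices along good sequences -/

open Classical in
/-- A symmetric unitary matrix as an element of `SymU` (junk value `1`). -/
def toSymU {ι : Type*} [Fintype ι] [DecidableEq ι] (S : Matrix ι ι ℂ) : SymU ι :=
  if h : S ∈ Matrix.unitaryGroup ι ℂ ∧ Sᵀ = S then ⟨S, h⟩
  else ⟨1, by exact one_mem _, Matrix.transpose_one⟩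

/-- `Λ` is the limit functional along `𝒰` of the law of the scattering matrix of `K` stars at
`E_n` (it always exists, is positive, linear and normalised). -/
def LimSX (d : ℕ) (𝒰 : Ultrafilter ℕ) (E : ℕ → ℝ) (K : ℕ)
    (Λ : C(SymU (Fin K × Fin d), ℝ) → ℝ) : Prop :=
  ∀ F : C(SymU (Fin K × Fin d), ℝ),
    Tendsto (fun n => avg (WW n d K) (fun ω => F (toSymU (SX (E n) ω)))) 𝒰 (𝓝 (Λ F))

/-- invariance under `S ↦ O S Oᵀ` for one real orthogonal `O` -/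
def conjSymU {ι : Type*} [Fintype ι] [DecidableEq ι] (U : Matrix ι ι ℂ) (S : SymU ι) : SymU ι :=
  toSymU (U * S.1 * Uᵀ)

/-- Block E: for a good sequence the law of `S` is asymptotically invariant under `O(dK)`. -/
def SpecOInv (d : ℕ) : Prop :=
  ∀ (𝒰 : Ultrafilter ℕ) (E : ℕ → ℝ) (E₀ : ℝ), GoodSeq d 𝒰 E E₀ →
  ∀ K : ℕ, 2 ≤ K → ∀ O : Matrix (Fin K × Fin d) (Fin K × Fin d) ℝ, O ∈ orthogonalGroup _ ℝ →
  ∀ F : C(SymU (Fin K × Fin d), ℝ),
    Tendsto (fun n => avg (WW n d K) (fun ω => F (toSymU (SX (E n) ω)))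
      - avg (WW n d K) (fun ω => F (conjSymU (O.map (fun x : ℝ => (x : ℂ))) (toSymU (SX (E n) ω)))))
      𝒰 (𝓝 0)

/-- The circular orthogonal ensemble: the law of `U Uᵀ` for a Haar unitary `U`. -/
def IsCOE {ι : Type*} [Fintype ι] [DecidableEq ι] (c : C(SymU ι, ℝ) → ℝ) : Prop :=
  c 1 = 1 ∧ (∀ F G, c (F + G) = c F + c G) ∧ (∀ (r : ℝ) F, c (r • F) = r * c F) ∧
  (∀ F : C(SymU ι, ℝ), 0 ≤ F → 0 ≤ c F) ∧
  ∀ U ∈ Matrix.unitaryGroup ι ℂ, ∀ F F' : C(SymU ι, ℝ),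
    (∀ S, F' S = F (conjSymU U S)) → c F' = c F

/-- Block F: for a good sequence the law of the Cayley transform of `G(E_n)` at `K` uniform
vertices tends to the circular orthogonal ensemble. -/
def SpecS (d : ℕ) : Prop :=
  ∀ (𝒰 : Ultrafilter ℕ) (E : ℕ → ℝ) (E₀ : ℝ), GoodSeq d 𝒰 E E₀ → ∀ K : ℕ,
  ∀ c : C(SymU (Fin K), ℝ) → ℝ, IsCOE c → ∀ F : C(SymU (Fin K), ℝ),
    Tendsto (fun n => avg (WW n d K)
      (fun ω => F (toSymU (cay (mdE d (E n)) (centreMat ω (E n : ℂ)))))) 𝒰 (𝓝 (c F))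

/-! ### Final statements -/

/-- The target: convergence along good sequences. -/
def SpecGoodLimit (d : ℕ) : Prop :=
  ∀ (𝒰 : Ultrafilter ℕ) (E : ℕ → ℝ) (E₀ : ℝ), GoodSeq d 𝒰 E E₀ →
  ∀ f : ℝ → ℝ, Continuous f → HasCompactSupport f → (∀ x, 0 ≤ f x) →
    Tendsto (fun n => avg (regularGraphs n d) (fun G => Real.exp (-∫ x, f x ∂(Xi n d (E n) G)))
      - ∫ w, Real.exp (-∫ x, f x ∂(XiGOE n w)) ∂(goeLaw n)) 𝒰 (𝓝 0)

/-- The target: energy averaged bulk universality. -/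
def SpecMain (d : ℕ) : Prop :=
  ∀ a b : ℝ, a < b → -(2 * Real.sqrt ((d : ℝ) - 1)) < a → b < 2 * Real.sqrt ((d : ℝ) - 1) →
  ∀ f : ℝ → ℝ, Continuous f → HasCompactSupport f → (∀ x, 0 ≤ f x) →
    Tendsto (fun n => ∫ E in a..b,
      |avg (regularGraphs n d) (fun G => Real.exp (-∫ x, f x ∂(Xi n d E G)))
        - ∫ w, Real.exp (-∫ x, f x ∂(XiGOE n w)) ∂(goeLaw n)|) (admissible d) (𝓝 0)

end

end Vale.Agent.P156
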