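import Mathlib
import Vale.Agent.P156.Defs

/-! Common definitions for the development `R2` (energy averaged bulk universality at fixed
degree).  Everything here is stated for the uniform simple `d`-regular graph on `Fin n`. -/

open MeasureTheory Filter Topology Matrix Finset

namespace Vale.Agent.P156

noncomputable section

open Classical in
/-- Uniform average of `Φ` over the finite set `s`. -/
def avg {α : Type*} (s : Finset α) (Φ : α → ℝ) : ℝ := (∑ ω ∈ s, Φ ω) / (s.card : ℝ)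

open Classical in
/-- Uniform probability of `P` over the finite set `s`. -/
def prob {α : Type*} (s : Finset α) (P : α → Prop) : ℝ :=
  avg s (fun ω => if P ω then 1 else 0)

/-! ### Star patterns -/

/-- Positions of `K` stars: centres `v` and leaves `l`. -/
abbrev StarPos (n d K : ℕ) : Type := (Fin K → Fin n) × (Fin K → Fin d → Fin n)

/-- `l` is an ordering of the neighbourhood of `v` in `G`. -/
def IsStar {n d : ℕ} (G : SimpleGraph (Fin n)) (v : Fin n) (l : Fin d → Fin n) : Prop :=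
  Function.Injective l ∧ ∀ w, G.Adj v w ↔ ∃ k, l k = w

open Classical in
/-- The sample space `W_K`: `G` uniform, `K` independent uniform vertices, uniform orderings of
their neighbourhoods. -/
def WW (n d K : ℕ) : Finset (SimpleGraph (Fin n) × StarPos n d K) :=
  Finset.univ.filter (fun ω => ω.1 ∈ regularGraphs n d ∧ ∀ j, IsStar ω.1 (ω.2.1 j) (ω.2.2 j))

open Classical in
/-- The good part `Z_K` of `W_K`: all centres and leaves distinct. -/
def ZZs (n d K : ℕ) : Finset (SimpleGraph (Fin n) × StarPos n d K) :=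
  (WW n d K).filter (fun ω => Function.Injective ω.2.1 ∧
    Function.Injective (fun p : Fin K × Fin d => ω.2.2 p.1 p.2) ∧
    ∀ j k i, ω.2.2 j k ≠ ω.2.1 i)

/-- The leaf (lead) of `ω` with index `p`. -/
def lead {n d K : ℕ} (ω : SimpleGraph (Fin n) × StarPos n d K) (p : Fin K × Fin d) : Fin n :=
  ω.2.2 p.1 p.2

/-- The vertex of the pattern with index `(j, none)` (centre) or `(j, some k)` (leaf). -/
def pos {n d K : ℕ} (ω : SimpleGraph (Fin n) × StarPos n d K) (a : Fin K × Option (Fin d)) :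
    Fin n :=
  a.2.elim (ω.2.1 a.1) (fun k => ω.2.2 a.1 k)

open Classical in
/-- The set of centres. -/
def centres {n d K : ℕ} (ω : SimpleGraph (Fin n) × StarPos n d K) : Finset (Fin n) :=
  Finset.univ.image ω.2.1

/-! ### Resolvents -/

/-- `A - z` with the rows and columns in `D` replaced by those of the identity. -/
def cutMat {V : Type*} [DecidableEq V] (A : Matrix V V ℝ) (D : Finset V) (z : ℂ) :
    Matrix V V ℂ :=
  fun x y => if x ∈ D ∨ y ∈ D then (if x = y then 1 else 0)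
    else (A x y : ℂ) - (if x = y then z else 0)

/-- The resolvent `R^D(z)` of `A` with the vertices of `D` removed. -/
def resD {V : Type*} [Fintype V] [DecidableEq V] (A : Matrix V V ℝ) (D : Finset V) (z : ℂ) :
    Matrix V V ℂ := (cutMat A D z)⁻¹

/-- `R^{v}(z)` restricted to the `dK` leads. -/
def leadMat {n d K : ℕ} (ω : SimpleGraph (Fin n) × StarPos n d K) (z : ℂ) :
    Matrix (Fin K × Fin d) (Fin K × Fin d) ℂ :=
  (resD (adj ω.1) (centres ω) z).submatrix (lead ω) (lead ω)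

/-- `G(z)` restricted to the pattern (centres and leaves). -/
def starMat {n d K : ℕ} (ω : SimpleGraph (Fin n) × StarPos n d K) (z : ℂ) :
    Matrix (Fin K × Option (Fin d)) (Fin K × Option (Fin d)) ℂ :=
  (resD (adj ω.1) ∅ z).submatrix (pos ω) (pos ω)

/-- `G(z)` restricted to the centres. -/
def centreMat {n d K : ℕ} (ω : SimpleGraph (Fin n) × StarPos n d K) (z : ℂ) :
    Matrix (Fin K) (Fin K) ℂ :=
  (resD (adj ω.1) ∅ z).submatrix ω.2.1 ω.2.1

/-! ### Tree quantities -/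

/-- The Stieltjes transform of the `(d-1)`-ary tree at a real bulk energy `E`: the solution with
positive imaginary part of `(d-1) m^2 + E m + 1 = 0`. -/
def mE (d : ℕ) (E : ℝ) : ℂ :=
  (-(E : ℂ) + (Real.sqrt (4 * ((d : ℝ) - 1) - E ^ 2) : ℂ) * Complex.I) / (2 * ((d : ℂ) - 1))

/-- The Stieltjes transform of the `d`-regular tree at `E`. -/
def mdE (d : ℕ) (E : ℝ) : ℂ := -1 / ((E : ℂ) + d * mE d E)

/-- Distance between two vertices of a star (`none` is the centre). -/
def starDist {d : ℕ} (x y : Option (Fin d)) : ℕ :=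
  if x = y then 0 else if x = none ∨ y = none then 1 else 2

/-- The tree resolvent on `K` far away stars: `m_d (-m)^{dist}` inside a star, `0` otherwise. -/
def KE (d : ℕ) (E : ℝ) (K : ℕ) :
    Matrix (Fin K × Option (Fin d)) (Fin K × Option (Fin d)) ℂ :=
  fun a b => if a.1 = b.1 then mdE d E * (-(mE d E)) ^ starDist a.2 b.2 else 0

/-! ### Scattering matrices -/

/-- The Cayley transform `(R - m)(R - conj m)⁻¹`. -/
def cay {ι : Type*} [Fintype ι] [DecidableEq ι] (m : ℂ) (R : Matrix ι ι ℂ) : Matrix ι ι ℂ :=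
  (R - m • (1 : Matrix ι ι ℂ)) * (R - (starRingEnd ℂ m) • (1 : Matrix ι ι ℂ))⁻¹

/-- Symmetric unitary matrices. -/
abbrev SymU (ι : Type*) [Fintype ι] [DecidableEq ι] : Type _ :=
  {S : Matrix ι ι ℂ // S ∈ Matrix.unitaryGroup ι ℂ ∧ Sᵀ = S}

/-- The scattering matrix of the `dK` leads at the real energy `E` (as a matrix; it is always
symmetric unitary, also at the exceptional energies because of the convention for inverses). -/
def SX {n d K : ℕ} (E : ℝ) (ω : SimpleGraph (Fin n) × StarPos n d K) :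
    Matrix (Fin K × Fin d) (Fin K × Fin d) ℂ :=
  cay (mE d E) (leadMat ω (E : ℂ))

/-! ### Eigenvectors and rescaled eigenvalues -/

/-- Orthonormal eigenvectors of the adjacency matrix, normalised so that `∑_v φ_i(v)² = n`. -/
def phi {n : ℕ} (G : SimpleGraph (Fin n)) (i v : Fin n) : ℝ :=
  Real.sqrt n * ((adj_isHermitian G).eigenvectorBasis i) v

/-- `x_i = n (λ_i - E)`. -/
def xx {n : ℕ} (E : ℝ) (G : SimpleGraph (Fin n)) (i : Fin n) : ℝ := (n : ℝ) * (eig G i - E)

/-! ### Good sequences of energies -/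

/-- `E_n` is a good sequence of energies along the ultrafilter `𝒰`. -/
structure GoodSeq (d : ℕ) (𝒰 : Ultrafilter ℕ) (E : ℕ → ℝ) (E₀ : ℝ) : Prop where
  three : 3 ≤ d
  atTop : (𝒰 : Filter ℕ) ≤ Filter.atTop
  even : ∀ᶠ n in (𝒰 : Filter ℕ), d < n ∧ Even (n * d)
  bulk : |E₀| < 2 * Real.sqrt ((d : ℝ) - 1)
  lim : Tendsto E 𝒰 (𝓝 E₀)
  nonsing : ∀ᶠ n in (𝒰 : Filter ℕ), ∀ G ∈ regularGraphs n d, ∀ D : Finset (Fin n),
    IsUnit (cutMat (adj G) D (E n : ℂ)).det
  /-- generic energies (automatic for almost every energy) -/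
  trans : ∀ᶠ n in (𝒰 : Filter ℕ), Transcendental ℤ (E n)
  /-- tail of `∑ x_i^{-2}` -/
  T1 : ∀ ε > 0, ∃ B : ℝ, ∀ᶠ n in (𝒰 : Filter ℕ),
    avg (regularGraphs n d) (fun G => ∑ i, if B < |xx (E n) G i| then (xx (E n) G i ^ 2)⁻¹ else 0)
      ≤ ε
  /-- expected number of eigenvalues in a window -/
  T1' : ∀ B : ℝ, ∃ C : ℝ, ∀ᶠ n in (𝒰 : Filter ℕ),
    avg (regularGraphs n d) (fun G => ∑ i, if |xx (E n) G i| ≤ B then 1 else 0) ≤ C
  /-- no eigenvalue very close to the energy -/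
  T2 : ∀ ε > 0, ∃ δ > 0, ∀ᶠ n in (𝒰 : Filter ℕ),
    prob (regularGraphs n d) (fun G => ∃ i, |xx (E n) G i| ≤ δ) ≤ ε
  /-- tightness of the lead matrix at real energy -/
  T3 : ∀ K : ℕ, ∀ ε > 0, ∃ B : ℝ, ∀ᶠ n in (𝒰 : Filter ℕ),
    prob (WW n d K) (fun ω => ∃ a b, B < ‖leadMat ω (E n : ℂ) a b‖) ≤ ε
  /-- soft local law on `K` stars -/
  T4 : ∀ K : ℕ, ∀ ε > 0, ∃ L₀ : ℝ, ∀ L ≥ L₀, ∃ L' ≥ L, ∀ᶠ n in (𝒰 : Filter ℕ),
    prob (WW n d K) (fun ω => ∃ a b,
      ε < ‖starMat ω ((E n : ℂ) + ((L' / n : ℝ) : ℂ) * Complex.I) a b - KE d (E n) K a b‖) ≤ ε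
  /-- uniform integrability of the squared waves -/
  T5 : ∀ B : ℝ, ∀ ε > 0, ∃ M : ℝ, ∀ᶠ n in (𝒰 : Filter ℕ),
    avg (WW n d 1) (fun ω => ∑ i, if |xx (E n) ω.1 i| ≤ B ∧ M < phi ω.1 i (ω.2.1 0) ^ 2
      then phi ω.1 i (ω.2.1 0) ^ 2 else 0) ≤ ε

end

end Vale.Agent.P156
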